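import Mathlib

namespace Vale.Agent.Results.P322.AllParities

open Finset

/-- `Phi x = log 2 - H((1 - x)/2)` in nats. -/
noncomputable def Phi (x : ℝ) : ℝ :=
  ((1 + x) * Real.log (1 + x) + (1 - x) * Real.log (1 - x)) / 2

theorem Phi_continuous : Continuous Phi := by
  unfold Phi
  have h1 : Continuous fun x : ℝ => (1 + x) * Real.log (1 + x) :=
    Real.continuous_mul_log.comp (continuous_const.add continuous_id)
  have h2 : Continuous fun x : ℝ => (1 - x) * Real.log (1 - x) :=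
    Real.continuous_mul_log.comp (continuous_const.sub continuous_id)
  exact (h1.add h2).div_const 2

theorem Phi_neg (x : ℝ) : Phi (-x) = Phi x := by
  unfold Phi
  rw [sub_neg_eq_add, ← sub_eq_add_neg]
  ring

theorem Phi_zero : Phi 0 = 0 := by
  unfold Phi
  simp

theorem Phi_hasDerivAt {x : ℝ} (h1 : -1 < x) (h2 : x < 1) :
    HasDerivAt Phi ((Real.log (1 + x) - Real.log (1 - x)) / 2) x := by
  unfold Phi
  have e1 : HasDerivAt (fun x : ℝ => 1 + x) 1 x := by
    simpa using (hasDerivAt_id x).const_add 1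
  have e2 : HasDerivAt (fun x : ℝ => 1 - x) (-1) x := by
    simpa using (hasDerivAt_id x).const_sub 1
  have d1 : HasDerivAt (fun x : ℝ => (1 + x) * Real.log (1 + x)) ((Real.log (1 + x) + 1) * 1) x :=
    (Real.hasDerivAt_mul_log (by linarith : (1 + x) ≠ 0)).comp x e1
  have d2 : HasDerivAt (fun x : ℝ => (1 - x) * Real.log (1 - x))
      ((Real.log (1 - x) + 1) * (-1)) x :=
    (Real.hasDerivAt_mul_log (by linarith : (1 - x) ≠ 0)).comp x e2
  have := (d1.add d2).div_const 2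
  have he : ((Real.log (1 + x) + 1) * 1 + (Real.log (1 - x) + 1) * (-1)) / 2
      = (Real.log (1 + x) - Real.log (1 - x)) / 2 := by ring
  rw [he] at this
  exact this

theorem artanh_star {l t : ℝ} (hl0 : 0 ≤ l) (hl1 : l ≤ 1) (ht0 : 0 ≤ t) (ht1 : t < 1) :
    Real.log (1 + l * t) - Real.log (1 - l * t) ≤ l * (Real.log (1 + t) - Real.log (1 - t)) := by
  have hlt0 : 0 ≤ l * t := mul_nonneg hl0 ht0
  have hlt : l * t ≤ t := by nlinarith
  have h1 := Real.hasSum_log_sub_log_of_abs_lt_one (x := l * t)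
    (by rw [abs_of_nonneg hlt0]; linarith)
  have h2 := (Real.hasSum_log_sub_log_of_abs_lt_one (x := t)
    (by rw [abs_of_nonneg ht0]; exact ht1)).mul_left l
  refine hasSum_le (fun k => ?_) h1 h2
  have hpow : l ^ (2 * k + 1) ≤ l := by
    calc l ^ (2 * k + 1) = l ^ (2 * k) * l := pow_succ _ _
      _ ≤ 1 * l := by
        apply mul_le_mul_of_nonneg_right _ hl0
        exact pow_le_one₀ hl0 hl1
      _ = l := one_mul l
  have htp : 0 ≤ t ^ (2 * k + 1) := pow_nonneg ht0 _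
  have hc : (0 : ℝ) ≤ 2 * (1 / (2 * (k : ℝ) + 1)) := by positivity
  rw [mul_pow]
  calc 2 * (1 / (2 * (k : ℝ) + 1)) * (l ^ (2 * k + 1) * t ^ (2 * k + 1))
      ≤ 2 * (1 / (2 * (k : ℝ) + 1)) * (l * t ^ (2 * k + 1)) := by
        apply mul_le_mul_of_nonneg_left _ hc
        exact mul_le_mul_of_nonneg_right hpow htp
    _ = l * (2 * (1 / (2 * (k : ℝ) + 1)) * t ^ (2 * k + 1)) := by ring

theorem Phi_scale {l t : ℝ} (hl0 : 0 ≤ l) (hl1 : l ≤ 1) (ht0 : 0 ≤ t) (ht1 : t ≤ 1) :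
    Phi (l * t) ≤ l ^ 2 * Phi t := by
  have hmono : MonotoneOn (fun s : ℝ => l ^ 2 * Phi s - Phi (l * s)) (Set.Icc 0 1) := by
    apply monotoneOn_of_deriv_nonneg (convex_Icc 0 1)
    · apply Continuous.continuousOn
      exact (continuous_const.mul Phi_continuous).sub
        (Phi_continuous.comp (continuous_const.mul continuous_id))
    · intro s hs
      rw [interior_Icc] at hs
      have hls0 : 0 ≤ l * s := mul_nonneg hl0 hs.1.le
      have hls : l * s ≤ s := by nlinarith [hs.1]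
      have d1 := (Phi_hasDerivAt (x := s) (by linarith [hs.1]) hs.2).const_mul (l ^ 2)
      have d2 : HasDerivAt (fun s : ℝ => Phi (l * s)) _ s :=
        (Phi_hasDerivAt (x := l * s) (by linarith) (by linarith [hs.2])).comp s
          (by simpa using (hasDerivAt_id s).const_mul l)
      exact (d1.sub d2).differentiableAt.differentiableWithinAt
    · intro s hs
      rw [interior_Icc] at hs
      have hls0 : 0 ≤ l * s := mul_nonneg hl0 hs.1.le
      have hls : l * s ≤ s := by nlinarith [hs.1]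
      have d1 := (Phi_hasDerivAt (x := s) (by linarith [hs.1]) hs.2).const_mul (l ^ 2)
      have d2 : HasDerivAt (fun s : ℝ => Phi (l * s)) _ s :=
        (Phi_hasDerivAt (x := l * s) (by linarith) (by linarith [hs.2])).comp s
          (by simpa using (hasDerivAt_id s).const_mul l)
      have d3 : HasDerivAt (fun s : ℝ => l ^ 2 * Phi s - Phi (l * s)) _ s := d1.sub d2
      rw [d3.deriv]
      have := artanh_star hl0 hl1 hs.1.le hs.2
      nlinarith [mul_le_mul_of_nonneg_left this hl0]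
  have := hmono (Set.left_mem_Icc.mpr zero_le_one) ⟨ht0, ht1⟩ ht0
  simp only [mul_zero, Phi_zero, sub_zero] at this
  linarith

/-- The real number `1` or `-1` given by a sign. -/
def sgn (u : ℤˣ) : ℝ := ((u : ℤ) : ℝ)

@[simp] theorem sgn_one : sgn 1 = 1 := by simp [sgn]
@[simp] theorem sgn_neg_one : sgn (-1) = -1 := by simp [sgn]
theorem sgn_mul (u v : ℤˣ) : sgn (u * v) = sgn u * sgn v := by simp [sgn]
theorem sgn_prod {ι : Type} (S : Finset ι) (u : ι → ℤˣ) :
    sgn (∏ i ∈ S, u i) = ∏ i ∈ S, sgn (u i) := by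
  simp [sgn]
theorem sgn_sq (u : ℤˣ) : sgn u * sgn u = 1 := by
  rcases Int.units_eq_one_or u with h | h <;> simp [h]
theorem abs_sgn (u : ℤˣ) : |sgn u| = 1 := by
  rcases Int.units_eq_one_or u with h | h <;> simp [h]

theorem sum_units (F : ℤˣ → ℝ) : ∑ u, F u = F 1 + F (-1) := by
  rw [UnitsInt.univ, Finset.sum_pair (by decide)]

theorem ind_eq (u s : ℤˣ) : (if u = s then (1 : ℝ) else 0) = (1 + sgn s * sgn u) / 2 := by
  rcases Int.units_eq_one_or u with h | h <;> rcases Int.units_eq_one_or s with h' | h' <;>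
    subst h <;> subst h' <;> norm_num

/-- The character `x ↦ ∏_{i ∈ S} x_i` with real values. -/
def chi {n : ℕ} (S : Finset (Fin n)) (x : Fin n → ℤˣ) : ℝ := ∏ i ∈ S, sgn (x i)

theorem chi_eq {n : ℕ} (S : Finset (Fin n)) (x : Fin n → ℤˣ) :
    chi S x = ∏ i, (if i ∈ S then sgn (x i) else 1) := by
  unfold chi
  rw [Finset.prod_ite_mem, Finset.univ_inter]

theorem abs_chi {n : ℕ} (S : Finset (Fin n)) (x : Fin n → ℤˣ) : |chi S x| = 1 := by
  unfold chi
  rw [Finset.abs_prod]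
  simp [abs_sgn]

theorem sum_prod_cube {n : ℕ} (φ : Fin n → ℤˣ → ℝ) :
    ∑ x : Fin n → ℤˣ, ∏ i, φ i (x i) = ∏ i, (φ i 1 + φ i (-1)) := by
  rw [← Fintype.prod_sum]
  exact Finset.prod_congr rfl (fun i _ => sum_units _)

theorem sum_chi_mul_chi {n : ℕ} (S T : Finset (Fin n)) :
    ∑ x : Fin n → ℤˣ, chi S x * chi T x = if S = T then (2 : ℝ) ^ n else 0 := by
  have h1 : ∀ x : Fin n → ℤˣ, chi S x * chi T x =
      ∏ i, ((if i ∈ S then sgn (x i) else 1) * (if i ∈ T then sgn (x i) else 1)) := by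
    intro x
    rw [chi_eq, chi_eq, Finset.prod_mul_distrib]
  simp_rw [h1]
  rw [sum_prod_cube (fun i u => (if i ∈ S then sgn u else 1) * (if i ∈ T then sgn u else 1))]
  split_ifs with h
  · subst h
    have : ∀ i : Fin n, ((if i ∈ S then sgn 1 else 1) * (if i ∈ S then sgn 1 else 1) +
        (if i ∈ S then sgn (-1) else 1) * (if i ∈ S then sgn (-1) else 1)) = (2 : ℝ) := by
      intro i
      split_ifs <;> norm_num
    simp_rw [this]
    simp
  · have : ∃ i, ¬ (i ∈ S ↔ i ∈ T) := by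
      by_contra hcon
      push Not at hcon
      exact h (Finset.ext hcon)
    obtain ⟨i, hi⟩ := this
    apply Finset.prod_eq_zero (mem_univ i)
    by_cases hS : i ∈ S <;> by_cases hT : i ∈ T <;> simp_all

/-- Bessel inequality on the cube for any family of characters. -/
theorem bessel {n : ℕ} (g : (Fin n → ℤˣ) → ℝ) (F : Finset (Finset (Fin n))) :
    ∑ S ∈ F, ((1 / 2 : ℝ) ^ n * ∑ x, g x * chi S x) ^ 2 ≤ (1 / 2 : ℝ) ^ n * ∑ x, g x ^ 2 := by
  set c : Finset (Fin n) → ℝ := fun S => (1 / 2 : ℝ) ^ n * ∑ x, g x * chi S x with hc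
  have hN : (1 / 2 : ℝ) ^ n * 2 ^ n = 1 := by
    rw [← mul_pow]; norm_num
  have hsum : ∀ S, ∑ x, g x * chi S x = 2 ^ n * c S := by
    intro S
    rw [hc]
    simp only
    rw [← mul_assoc, mul_comm ((2 : ℝ) ^ n), hN, one_mul]
  have key : 0 ≤ ∑ x, (g x - ∑ S ∈ F, c S * chi S x) ^ 2 :=
    Finset.sum_nonneg (fun x _ => sq_nonneg _)
  have e1 : ∑ x, (g x - ∑ S ∈ F, c S * chi S x) ^ 2 =
      ∑ x, g x ^ 2 - 2 * ∑ x, g x * (∑ S ∈ F, c S * chi S x)
        + ∑ x, (∑ S ∈ F, c S * chi S x) * (∑ T ∈ F, c T * chi T x) := by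
    rw [Finset.mul_sum, ← Finset.sum_sub_distrib, ← Finset.sum_add_distrib]
    apply Finset.sum_congr rfl
    intro x _
    ring
  have e2 : ∑ x, g x * (∑ S ∈ F, c S * chi S x) = 2 ^ n * ∑ S ∈ F, c S ^ 2 := by
    simp_rw [Finset.mul_sum]
    rw [Finset.sum_comm]
    apply Finset.sum_congr rfl
    intro S _
    have : ∑ x, g x * (c S * chi S x) = c S * ∑ x, g x * chi S x := by
      rw [Finset.mul_sum]
      apply Finset.sum_congr rfl
      intro x _
      ring
    rw [this, hsum]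
    ring
  have e3 : ∑ x, (∑ S ∈ F, c S * chi S x) * (∑ T ∈ F, c T * chi T x)
      = 2 ^ n * ∑ S ∈ F, c S ^ 2 := by
    simp_rw [Finset.sum_mul_sum]
    rw [Finset.sum_comm]
    rw [Finset.mul_sum]
    apply Finset.sum_congr rfl
    intro S hS
    rw [Finset.sum_comm]
    have : ∀ T ∈ F, ∑ x, c S * chi S x * (c T * chi T x)
        = c S * c T * (if S = T then (2 : ℝ) ^ n else 0) := by
      intro T _
      rw [← sum_chi_mul_chi, Finset.mul_sum]
      apply Finset.sum_congr rfl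
      intro x _
      ring
    rw [Finset.sum_congr rfl this]
    simp only [mul_ite, mul_zero]
    rw [Finset.sum_ite_eq, if_pos hS]
    ring
  rw [e1, e2, e3] at key
  have h2 : (0 : ℝ) < (1 / 2 : ℝ) ^ n := by positivity
  have : (1 / 2 : ℝ) ^ n * (2 ^ n * ∑ S ∈ F, c S ^ 2) = ∑ S ∈ F, c S ^ 2 := by
    rw [← mul_assoc, hN, one_mul]
  nlinarith [mul_le_mul_of_nonneg_left key h2.le]


/-- Probability of the pair (input `x`, noise `z`): `x` is uniform on `{-1,1}^n`, the noise signs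
are independent with `Pr(z_i = -1) = ε`. -/
noncomputable def weight (n : ℕ) (ε : ℝ) (ω : (Fin n → ℤˣ) × (Fin n → ℤˣ)) : ℝ :=
  (1 / 2 : ℝ) ^ n * ∏ i, (if ω.2 i = -1 then ε else 1 - ε)

/-- Probability of an event under the weights `P` on a finite sample space. -/
noncomputable def prob {Ω : Type} [Fintype Ω] (P : Ω → ℝ) (E : Ω → Prop) [DecidablePred E] : ℝ :=
  ∑ ω, if E ω then P ω else 0

/-- Mutual information, in bits, of two finitely valued random variables `U`, `V`. -/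
noncomputable def mutualInfo {Ω A B : Type} [Fintype Ω] [Fintype A] [Fintype B]
    [DecidableEq A] [DecidableEq B] (P : Ω → ℝ) (U : Ω → A) (V : Ω → B) : ℝ :=
  ∑ a, ∑ b, prob P (fun ω => U ω = a ∧ V ω = b) *
    Real.logb 2 (prob P (fun ω => U ω = a ∧ V ω = b) /
      (prob P (fun ω => U ω = a) * prob P (fun ω => V ω = b)))

/-- The binary entropy function in bits. -/
noncomputable def h2 (p : ℝ) : ℝ := -(p * Real.logb 2 p) - (1 - p) * Real.logb 2 (1 - p)

theorem sum_noise {n : ℕ} (ε : ℝ) :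
    ∑ z : Fin n → ℤˣ, ∏ i, (if z i = -1 then ε else 1 - ε) = 1 := by
  rw [sum_prod_cube (fun _ u => if u = -1 then ε else 1 - ε)]
  have : ∀ i : Fin n, ((if (1 : ℤˣ) = -1 then ε else 1 - ε) +
      (if (-1 : ℤˣ) = -1 then ε else 1 - ε)) = 1 := by
    intro i
    rw [if_neg (by decide), if_pos rfl]
    ring
  rw [Finset.prod_congr rfl (fun i _ => this i)]
  simp

theorem sum_noise_chi {n : ℕ} (ε : ℝ) (S : Finset (Fin n)) :
    ∑ z : Fin n → ℤˣ, chi S z * ∏ i, (if z i = -1 then ε else 1 - ε) = (1 - 2 * ε) ^ S.card := by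
  have h1 : ∀ z : Fin n → ℤˣ, chi S z * ∏ i, (if z i = -1 then ε else 1 - ε) =
      ∏ i, ((if i ∈ S then sgn (z i) else 1) * (if z i = -1 then ε else 1 - ε)) := by
    intro z
    rw [chi_eq, Finset.prod_mul_distrib]
  simp_rw [h1]
  rw [sum_prod_cube (fun i u => (if i ∈ S then sgn u else 1) * (if u = -1 then ε else 1 - ε))]
  have : ∀ i : Fin n, ((if i ∈ S then sgn 1 else 1) * (if (1 : ℤˣ) = -1 then ε else 1 - ε) +
      (if i ∈ S then sgn (-1) else 1) * (if (-1 : ℤˣ) = -1 then ε else 1 - ε))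
      = if i ∈ S then (1 - 2 * ε) else 1 := by
    intro i
    rw [if_neg (by decide : ¬ (1 : ℤˣ) = -1), if_pos rfl]
    split_ifs <;> simp <;> ring
  rw [Finset.prod_congr rfl (fun i _ => this i)]
  rw [Finset.prod_ite_mem, Finset.univ_inter, Finset.prod_const]

variable {n : ℕ}

/-- `Pr(f(X) = b)`. -/
noncomputable def pf (f : (Fin n → ℤˣ) → ℤˣ) (b : ℤˣ) : ℝ :=
  (1 / 2 : ℝ) ^ n * ∑ x, (if f x = b then (1 : ℝ) else 0)

/-- `E[1_{f(X) = b} χ_S(X)]`. -/
noncomputable def af (f : (Fin n → ℤˣ) → ℤˣ) (b : ℤˣ) (S : Finset (Fin n)) : ℝ :=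
  (1 / 2 : ℝ) ^ n * ∑ x, (if f x = b then (1 : ℝ) else 0) * chi S x

theorem prob_f (f : (Fin n → ℤˣ) → ℤˣ) (ε : ℝ) (b : ℤˣ) :
    prob (weight n ε) (fun ω => f ω.1 = b) = pf f b := by
  unfold prob weight pf
  rw [Fintype.sum_prod_type, Finset.mul_sum]
  apply Finset.sum_congr rfl
  intro x _
  simp only
  split_ifs with h
  · rw [← Finset.mul_sum, sum_noise]
  · simp

theorem prob_joint (f : (Fin n → ℤˣ) → ℤˣ) (ε : ℝ) (b s : ℤˣ) (S : Finset (Fin n)) :
    prob (weight n ε) (fun ω => f ω.1 = b ∧ ∏ i ∈ S, (ω.1 i * ω.2 i) = s)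
      = (pf f b + sgn s * ((1 - 2 * ε) ^ S.card * af f b S)) / 2 := by
  unfold prob weight pf af
  rw [Fintype.sum_prod_type]
  have h1 : ∀ x : Fin n → ℤˣ, ∑ z : Fin n → ℤˣ,
      (if f x = b ∧ ∏ i ∈ S, (x i * z i) = s then
        (1 / 2 : ℝ) ^ n * ∏ i, (if z i = -1 then ε else 1 - ε) else 0)
      = (1 / 2 : ℝ) ^ n * ((if f x = b then (1 : ℝ) else 0) *
          ((1 + sgn s * (chi S x * (1 - 2 * ε) ^ S.card)) / 2)) := by
    intro x
    have h2 : ∀ z : Fin n → ℤˣ,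
        (if f x = b ∧ ∏ i ∈ S, (x i * z i) = s then
          (1 / 2 : ℝ) ^ n * ∏ i, (if z i = -1 then ε else 1 - ε) else 0)
        = (1 / 2 : ℝ) ^ n * ((if f x = b then (1 : ℝ) else 0) *
          ((∏ i, (if z i = -1 then ε else 1 - ε)
            + sgn s * (chi S x * (chi S z * ∏ i, (if z i = -1 then ε else 1 - ε)))) / 2)) := by
      intro z
      have h3 : (if f x = b ∧ ∏ i ∈ S, (x i * z i) = s then
          (1 / 2 : ℝ) ^ n * ∏ i, (if z i = -1 then ε else 1 - ε) else 0)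
          = (if f x = b then (1 : ℝ) else 0) * (if ∏ i ∈ S, (x i * z i) = s then (1 : ℝ) else 0)
            * ((1 / 2 : ℝ) ^ n * ∏ i, (if z i = -1 then ε else 1 - ε)) := by
        by_cases hA : f x = b <;> by_cases hB : ∏ i ∈ S, (x i * z i) = s <;> simp [hA, hB]
      rw [h3, ind_eq (∏ i ∈ S, (x i * z i)) s, sgn_prod]
      have h4 : ∏ i ∈ S, sgn (x i * z i) = chi S x * chi S z := by
        unfold chi
        rw [← Finset.prod_mul_distrib]
        exact Finset.prod_congr rfl (fun i _ => sgn_mul _ _)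
      rw [h4]
      ring
    simp_rw [h2]
    rw [← Finset.mul_sum, ← Finset.mul_sum, ← Finset.sum_div, Finset.sum_add_distrib, sum_noise,
      ← Finset.mul_sum, ← Finset.mul_sum, sum_noise_chi]
  simp_rw [h1]
  rw [← Finset.mul_sum]
  have h5 : ∀ x : Fin n → ℤˣ, (if f x = b then (1 : ℝ) else 0) *
      ((1 + sgn s * (chi S x * (1 - 2 * ε) ^ S.card)) / 2)
      = (if f x = b then (1 : ℝ) else 0) / 2 +
        (sgn s * (1 - 2 * ε) ^ S.card / 2) * ((if f x = b then (1 : ℝ) else 0) * chi S x) := by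
    intro x
    ring
  simp_rw [h5]
  rw [Finset.sum_add_distrib, ← Finset.sum_div, ← Finset.mul_sum]
  ring

theorem sum_chi_eq_zero {S : Finset (Fin n)} (hS : S ≠ ∅) : ∑ x : Fin n → ℤˣ, chi S x = 0 := by
  have := sum_chi_mul_chi S ∅
  rw [if_neg hS] at this
  simpa [chi] using this

theorem prob_parity (ε : ℝ) (s : ℤˣ) {S : Finset (Fin n)} (hS : S ≠ ∅) :
    prob (weight n ε) (fun ω => ∏ i ∈ S, (ω.1 i * ω.2 i) = s) = 1 / 2 := by
  -- sum the joint law over the two values of a constant function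
  have h := prob_joint (fun _ => (1 : ℤˣ)) ε 1 s S
  have e1 : prob (weight n ε) (fun ω => ∏ i ∈ S, (ω.1 i * ω.2 i) = s)
      = prob (weight n ε) (fun ω => (fun _ => (1 : ℤˣ)) ω.1 = 1 ∧ ∏ i ∈ S, (ω.1 i * ω.2 i) = s) := by
    unfold prob
    apply Finset.sum_congr rfl
    intro ω _
    simp
  rw [e1, h]
  have e2 : pf (fun _ : Fin n → ℤˣ => (1 : ℤˣ)) 1 = 1 := by
    unfold pf
    simp
  have e3 : af (fun _ : Fin n → ℤˣ => (1 : ℤˣ)) 1 S = 0 := by
    unfold af
    simp [sum_chi_eq_zero hS]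
  rw [e2, e3]
  ring


theorem Phi_nonneg {x : ℝ} (h1 : -1 ≤ x) (h2 : x ≤ 1) : 0 ≤ Phi x := by
  have key : ∀ t : ℝ, 0 ≤ t → t - 1 ≤ t * Real.log t := by
    intro t ht
    rcases ht.eq_or_lt with h | h
    · rw [← h]; simp
    · have := Real.one_sub_inv_le_log_of_pos h
      have h3 := mul_le_mul_of_nonneg_left this h.le
      rw [mul_sub, mul_one, mul_inv_cancel₀ h.ne'] at h3
      exact h3
  unfold Phi
  have a1 := key (1 + x) (by linarith)
  have a2 := key (1 - x) (by linarith)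
  linarith

theorem Phi_rho {ε : ℝ} (h0 : 0 ≤ ε) (h1 : ε ≤ 1 / 2) :
    Phi (1 - 2 * ε) = Real.log 2 * (1 - h2 ε) := by
  have hl2 : Real.log 2 ≠ 0 := (Real.log_pos (by norm_num)).ne'
  unfold Phi h2 Real.logb
  have e1 : 1 + (1 - 2 * ε) = 2 * (1 - ε) := by ring
  have e2 : 1 - (1 - 2 * ε) = 2 * ε := by ring
  rw [e1, e2, Real.log_mul (by norm_num) (by linarith)]
  rcases h0.eq_or_lt with h | h
  · rw [← h]
    field_simp
    simp
  · rw [Real.log_mul (by norm_num) h.ne']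
    field_simp
    ring

theorem pf_nonneg (f : (Fin n → ℤˣ) → ℤˣ) (b : ℤˣ) : 0 ≤ pf f b := by
  unfold pf
  apply mul_nonneg (by positivity)
  apply Finset.sum_nonneg
  intro x _
  split_ifs <;> norm_num

theorem abs_af_le (f : (Fin n → ℤˣ) → ℤˣ) (b : ℤˣ) (S : Finset (Fin n)) :
    |af f b S| ≤ pf f b := by
  unfold af pf
  rw [abs_mul, abs_of_nonneg (by positivity : (0 : ℝ) ≤ (1 / 2) ^ n)]
  apply mul_le_mul_of_nonneg_left _ (by positivity)
  refine (Finset.abs_sum_le_sum_abs _ _).trans ?_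
  apply Finset.sum_le_sum
  intro x _
  rw [abs_mul, abs_chi, mul_one]
  split_ifs <;> simp

theorem pf_sum (f : (Fin n → ℤˣ) → ℤˣ) : pf f 1 + pf f (-1) = 1 := by
  unfold pf
  rw [← mul_add, ← Finset.sum_add_distrib]
  have : ∀ x : Fin n → ℤˣ, (if f x = 1 then (1 : ℝ) else 0) + (if f x = -1 then (1 : ℝ) else 0)
      = 1 := by
    intro x
    rcases Int.units_eq_one_or (f x) with h | h <;> rw [h]
    · rw [if_pos rfl, if_neg (by decide)]; ring
    · rw [if_neg (by decide), if_pos rfl]; ring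
  rw [Finset.sum_congr rfl (fun x _ => this x)]
  simp

theorem sum_af_sq_le (f : (Fin n → ℤˣ) → ℤˣ) (b : ℤˣ) (F : Finset (Finset (Fin n)))
    (hF : ∅ ∉ F) : ∑ S ∈ F, af f b S ^ 2 ≤ pf f b - pf f b ^ 2 := by
  have h := bessel (fun x => if f x = b then (1 : ℝ) else 0) (insert ∅ F)
  rw [Finset.sum_insert hF] at h
  have e1 : (1 / 2 : ℝ) ^ n * ∑ x, (if f x = b then (1 : ℝ) else 0) * chi ∅ x = pf f b := by
    unfold pf chi
    simp
  have e2 : (1 / 2 : ℝ) ^ n * ∑ x : Fin n → ℤˣ, (if f x = b then (1 : ℝ) else 0) ^ 2 = pf f b := by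
    unfold pf
    congr 1
    apply Finset.sum_congr rfl
    intro x _
    split_ifs <;> norm_num
  rw [e1, e2] at h
  unfold af
  linarith

theorem inner_sum {p c : ℝ} (hp : 0 ≤ p) (hc : p = 0 → c = 0) :
    ∑ s : ℤˣ, (p + sgn s * c) / 2 * Real.logb 2 ((p + sgn s * c) / 2 / (p * (1 / 2)))
      = p * Phi (c / p) / Real.log 2 := by
  rw [sum_units]
  rcases hp.eq_or_lt with h | h
  · have hc0 : c = 0 := hc h.symm
    rw [← h, hc0]
    simp
  · have e1 : (p + sgn 1 * c) / 2 / (p * (1 / 2)) = 1 + c / p := by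
      rw [sgn_one]; field_simp
    have e2 : (p + sgn (-1) * c) / 2 / (p * (1 / 2)) = 1 - c / p := by
      rw [sgn_neg_one]; field_simp; ring
    rw [e1, e2, sgn_one, sgn_neg_one]
    unfold Phi Real.logb
    field_simp
    ring

theorem term_bound {p a ρ : ℝ} {k : ℕ} (hk : 1 ≤ k) (hp : 0 ≤ p) (ha : |a| ≤ p)
    (h0 : 0 ≤ ρ) (h1 : ρ ≤ 1) : p * Phi (ρ ^ k * a / p) ≤ a ^ 2 / p * Phi ρ := by
  rcases hp.eq_or_lt with h | h
  · rw [← h]; simp
  · obtain ⟨j, rfl⟩ : ∃ j, k = j + 1 := ⟨k - 1, by omega⟩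
    have hΦ : 0 ≤ Phi ρ := Phi_nonneg (by linarith) h1
    have hl0 : 0 ≤ ρ ^ j * (|a| / p) := by positivity
    have hap : |a| / p ≤ 1 := by rw [div_le_one h]; exact ha
    have hρj : ρ ^ j ≤ 1 := pow_le_one₀ h0 h1
    have hl1 : ρ ^ j * (|a| / p) ≤ 1 := by
      calc ρ ^ j * (|a| / p) ≤ 1 * 1 := mul_le_mul hρj hap (by positivity) (by norm_num)
        _ = 1 := by norm_num
    have e1 : Phi (ρ ^ (j + 1) * a / p) = Phi (ρ ^ j * (|a| / p) * ρ) := by
      rcases abs_cases a with ⟨h', _⟩ | ⟨h', _⟩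
      · rw [h']; congr 1; ring
      · rw [h', ← Phi_neg]; congr 1; ring
    rw [e1]
    have h2 := Phi_scale hl0 hl1 h0 h1
    have h3 : (ρ ^ j * (|a| / p)) ^ 2 ≤ (|a| / p) ^ 2 := by
      apply pow_le_pow_left₀ hl0
      calc ρ ^ j * (|a| / p) ≤ 1 * (|a| / p) := mul_le_mul_of_nonneg_right hρj (by positivity)
        _ = |a| / p := one_mul _
    have h4 : Phi (ρ ^ j * (|a| / p) * ρ) ≤ (|a| / p) ^ 2 * Phi ρ :=
      h2.trans (mul_le_mul_of_nonneg_right h3 hΦ)
    have h5 : p * ((|a| / p) ^ 2 * Phi ρ) = a ^ 2 / p * Phi ρ := by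
      rw [div_pow, sq_abs]
      field_simp
    rw [← h5]
    exact mul_le_mul_of_nonneg_left h4 h.le

theorem mutualInfo_eq (f : (Fin n → ℤˣ) → ℤˣ) (ε : ℝ) {S : Finset (Fin n)} (hS : S ≠ ∅) :
    mutualInfo (weight n ε) (fun ω => f ω.1) (fun ω => ∏ i ∈ S, (ω.1 i * ω.2 i))
      = ∑ b : ℤˣ, pf f b * Phi ((1 - 2 * ε) ^ S.card * af f b S / pf f b) / Real.log 2 := by
  unfold mutualInfo
  apply Finset.sum_congr rfl
  intro b _
  rw [← inner_sum (pf_nonneg f b)]
  · apply Finset.sum_congr rfl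
    intro s _
    rw [prob_joint, prob_f, prob_parity ε s hS]
  · intro h
    have := abs_af_le f b S
    rw [h] at this
    rw [abs_nonpos_iff.mp this, mul_zero]

/-- Main estimate for an arbitrary family of nonempty coordinate sets. -/
theorem family_bound (f : (Fin n → ℤˣ) → ℤˣ) {ε : ℝ} (h0 : 0 ≤ ε) (h1 : ε ≤ 1 / 2)
    (F : Finset (Finset (Fin n))) (hF : ∅ ∉ F) :
    ∑ S ∈ F, mutualInfo (weight n ε) (fun ω => f ω.1) (fun ω => ∏ i ∈ S, (ω.1 i * ω.2 i))
      ≤ 1 - h2 ε := by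
  have hl2 : 0 < Real.log 2 := Real.log_pos (by norm_num)
  have hρ0 : 0 ≤ 1 - 2 * ε := by linarith
  have hρ1 : 1 - 2 * ε ≤ 1 := by linarith
  have hΦ : 0 ≤ Phi (1 - 2 * ε) := Phi_nonneg (by linarith) hρ1
  have step1 : ∀ S ∈ F,
      mutualInfo (weight n ε) (fun ω => f ω.1) (fun ω => ∏ i ∈ S, (ω.1 i * ω.2 i))
        ≤ ∑ b : ℤˣ, af f b S ^ 2 / pf f b * Phi (1 - 2 * ε) / Real.log 2 := by
    intro S hS
    have hne : S ≠ ∅ := fun h => hF (h ▸ hS)
    rw [mutualInfo_eq f ε hne]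
    apply Finset.sum_le_sum
    intro b _
    apply div_le_div_of_nonneg_right _ hl2.le
    exact term_bound (Finset.card_pos.mpr (Finset.nonempty_iff_ne_empty.mpr hne))
      (pf_nonneg f b) (abs_af_le f b S) hρ0 hρ1
  refine (Finset.sum_le_sum step1).trans ?_
  rw [Finset.sum_comm]
  have step2 : ∀ b : ℤˣ, ∑ S ∈ F, af f b S ^ 2 / pf f b * Phi (1 - 2 * ε) / Real.log 2
      ≤ (1 - pf f b) * (Phi (1 - 2 * ε) / Real.log 2) := by
    intro b
    have e : ∑ S ∈ F, af f b S ^ 2 / pf f b * Phi (1 - 2 * ε) / Real.log 2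
        = (∑ S ∈ F, af f b S ^ 2) / pf f b * (Phi (1 - 2 * ε) / Real.log 2) := by
      rw [Finset.sum_div, Finset.sum_mul]
      apply Finset.sum_congr rfl
      intro S _
      ring
    rw [e]
    apply mul_le_mul_of_nonneg_right _ (div_nonneg hΦ hl2.le)
    have hb := sum_af_sq_le f b F hF
    have hp1 : pf f b ≤ 1 := by
      have := pf_sum f
      have a1 := pf_nonneg f 1
      have a2 := pf_nonneg f (-1)
      rcases Int.units_eq_one_or b with h | h <;> rw [h] <;> linarith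
    rcases (pf_nonneg f b).eq_or_lt with h | h
    · rw [← h]; simp
    · rw [div_le_iff₀ h]
      nlinarith
  refine (Finset.sum_le_sum (fun b _ => step2 b)).trans ?_
  rw [sum_units, Phi_rho h0 h1]
  have := pf_sum f
  have e : (1 - pf f 1) * (Real.log 2 * (1 - h2 ε) / Real.log 2)
      + (1 - pf f (-1)) * (Real.log 2 * (1 - h2 ε) / Real.log 2)
      = (2 - (pf f 1 + pf f (-1))) * (1 - h2 ε) := by
    field_simp
    ring
  rw [e, this]
  linarith

/-- For every Boolean function `f` on `{-1,1}^n` (balanced or not) and every crossover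
probability `ε ∈ [0, 1/2]`:
(1) the mutual informations between `f(X)` and the parities `∏_{i ∈ S} Y_i` of the noisy vector,
summed over all nonempty `S ⊆ [n]`, are at most `1 - h₂(ε)`;
(2) in particular `∑_i I(f(X); Y_i) ≤ 1 - h₂(ε)`. -/
theorem result (n : ℕ) (f : (Fin n → ℤˣ) → ℤˣ) (ε : ℝ) (h0 : 0 ≤ ε) (h1 : ε ≤ 1 / 2) :
    (∑ S ∈ (Finset.univ : Finset (Finset (Fin n))).filter (fun S => S.Nonempty),
        mutualInfo (weight n ε) (fun ω => f ω.1) (fun ω => ∏ i ∈ S, (ω.1 i * ω.2 i))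
      ≤ 1 - h2 ε) ∧
    (∑ i : Fin n, mutualInfo (weight n ε) (fun ω => f ω.1) (fun ω => ω.1 i * ω.2 i)
      ≤ 1 - h2 ε) := by
  constructor
  · apply family_bound f h0 h1
    simp
  · have h := family_bound f h0 h1 (Finset.univ.image (fun i : Fin n => ({i} : Finset (Fin n))))
      (by simp)
    rw [Finset.sum_image (by
      intro i _ j _ hij
      exact Finset.singleton_injective hij)] at h
    simpa using h

end Vale.Agent.Results.P322.AllParities
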